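import Vale.Agent.P201x95.FreeKer

/-!
# P201: extensions with free kernel preserve the absence of zero divisors

Let `K` be any commutative ring (for instance any field, of any characteristic), and let
`φ : G →* Q` be a group homomorphism whose kernel is a free group (of arbitrary rank).
If `K[Q]` has no zero divisors then `K[G]` has no zero divisors.
-/

namespace Vale.Agent.Results.P201.FreeKernel

theorem result (K : Type*) [CommRing K] (G Q : Type*) [Group G] [Group Q] (φ : G →* Q)
    [IsFreeGroup φ.ker] (hQ : NoZeroDivisors (MonoidAlgebra K Q)) :
    NoZeroDivisors (MonoidAlgebra K G) :=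
  Vale.Agent.P201x95.noZeroDivisors_of_free_ker φ

end Vale.Agent.Results.P201.FreeKernel
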