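import Mathlib
import Vale.Agent.Results.P201.FreeKernel

/-!
# P201: extensions whose kernel has a normal series with free factors

Let `K` be a field and `G` a group with a chain `1 = N 0 ≤ N 1 ≤ ... ≤ N k` of normal subgroups of
`G` such that every factor `N (i+1) / N i` is a free group (of arbitrary rank).  If the group
algebra `K[G / N k]` has no nonzero zero divisors, then neither has `K[G]`.
-/

namespace Vale.Agent.Results.P201.PolyFreeKernel

theorem result (K : Type*) [Field K] (G : Type*) [Group G] (k : ℕ) (N : ℕ → Subgroup G)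
    [hnorm : ∀ i, (N i).Normal] (h0 : N 0 = ⊥) (hmono : ∀ i, N i ≤ N (i + 1))
    (hfree : ∀ i, i < k → IsFreeGroup ((N (i + 1)).map (QuotientGroup.mk' (N i))))
    (hQ : ∀ a b : MonoidAlgebra K (G ⧸ N k), a * b = 0 → a = 0 ∨ b = 0) :
    ∀ α β : MonoidAlgebra K G, α * β = 0 → α = 0 ∨ β = 0 := by
  -- one step down the chain
  have step : ∀ i, i < k → NoZeroDivisors (MonoidAlgebra K (G ⧸ N (i + 1))) →
      NoZeroDivisors (MonoidAlgebra K (G ⧸ N i)) := by
    intro i hi hnz
    have hle : N i ≤ Subgroup.comap (MonoidHom.id G) (N (i + 1)) := by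
      rw [Subgroup.comap_id]; exact hmono i
    have hker : (QuotientGroup.map (N i) (N (i + 1)) (MonoidHom.id G) hle).ker
        = (N (i + 1)).map (QuotientGroup.mk' (N i)) := by
      rw [QuotientGroup.ker_map, Subgroup.comap_id]
    have hfr : IsFreeGroup (QuotientGroup.map (N i) (N (i + 1)) (MonoidHom.id G) hle).ker := by
      rw [hker]; exact hfree i hi
    exact Vale.Agent.Results.P201.FreeKernel.result K (G ⧸ N i) (G ⧸ N (i + 1))
      (QuotientGroup.map (N i) (N (i + 1)) (MonoidHom.id G) hle) hnz
  have all : ∀ j, j ≤ k → NoZeroDivisors (MonoidAlgebra K (G ⧸ N (k - j))) := by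
    intro j
    induction j with
    | zero =>
      intro _
      exact ⟨fun {a b} h => hQ a b h⟩
    | succ j ih =>
      intro hj
      have h1 := ih (by omega)
      have h2 : k - j = (k - (j + 1)) + 1 := by omega
      rw [h2] at h1
      exact step _ (by omega) h1
  have hz : NoZeroDivisors (MonoidAlgebra K (G ⧸ N 0)) := by
    have := all k le_rfl
    rwa [Nat.sub_self] at this
  have hker0 : (QuotientGroup.mk' (N 0)).ker = ⊥ := by
    rw [QuotientGroup.ker_mk', h0]
  have hfr0 : IsFreeGroup (QuotientGroup.mk' (N 0)).ker := by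
    rw [hker0]
    exact IsFreeGroup.ofMulEquiv (MulEquiv.ofUnique : FreeGroup Empty ≃* (⊥ : Subgroup G))
  have hG : NoZeroDivisors (MonoidAlgebra K G) :=
    Vale.Agent.Results.P201.FreeKernel.result K G (G ⧸ N 0) (QuotientGroup.mk' (N 0)) hz
  intro α β h
  exact hG.eq_zero_or_eq_zero_of_mul_eq_zero h

end Vale.Agent.Results.P201.PolyFreeKernel
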